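import Claimed.Agent.R257.End.Main
import Claimed.Agent.R257.Br.Main
import Claimed.Agent.R257.Weak.Deep

/-!
# R257 / Top : S0497 FROM THE REMAINING CONTRACTS            (helper244)

`r257_top` has literally the conclusion of S0497.   `Rest n W` = everything that is still to be proved, for ONE set of conventions `W` with `WOk n W`:
`SparseStmt` (helper7), `PowerLossStmt` (helper245, 188, 3), `ArrSupStmt` (helper53), `HrStmt` (helper59; from `AngularStmt` of helper83 and `wh_main` of helper273), `WallStmt` (helper67; from WALLCORE of helper185, 18, 131),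
`FlStmt` (helper263; from `FrameStmt (n-1)`, `SparseStmt`, `AngularStmt`).
EVERY BLOCK MUST PROVE ITS EXIT FOR ALL `W` WITH `WOk n W` (or tell helper244 which further inequality on `W` it needs: it is added to `WOk`; `W0 n` is adapted).
-/

set_option autoImplicit false

namespace Claimed.Agent.R257

open MeasureTheory Filter Topology Claims.C0425
open scoped FourierTransform

/-- the conditions on the fixed conventions -/
structure WOk (n : ℕ) (W : WCon) : Prop where
  R : 3 ≤ W.K.R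
  Rω : 14 + Real.sqrt n ≤ W.K.Rω
  m₀ : (4 * n + 1) ^ n ≤ W.K.m₀
  M : n + 2 ≤ W.M
  T₀ : 1 ≤ W.T₀
  Cb : 1 + Real.sqrt n ≤ W.Cb
  /-- needed by AN (`WCon.Sane.time`, `≤`) and by FL (`FlW`, STRICT): the profiles live in the time slab -/
  time : W.K.R < W.T₀

/-- one admissible choice -/
noncomputable def W0 (n : ℕ) : WCon := ⟨⟨0, 3, 1, 14 + Real.sqrt n, (4 * n + 1) ^ n⟩, n + 2, 4, 1 + Real.sqrt n⟩

theorem W0_ok (n : ℕ) : WOk n (W0 n) := ⟨le_rfl, le_rfl, le_rfl, le_rfl, by norm_num [W0], le_rfl, by norm_num [W0]⟩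

/-- what is still to be proved -/
structure Rest (n : ℕ) (W : WCon) : Prop where
  main : ∃ cs a pmax : ℝ, 0 < cs ∧ 0 < a ∧ 2 * a < 1 - bet n ∧ 2 < pmax ∧ SparseStmt n W cs ∧ HrStmt n W a pmax ∧ FlStmt n W cs a pmax
  power : PowerLossStmt n W
  sup : ArrSupStmt n W
  wall : WallStmt n W

theorem r257_weak {n : ℕ} (hn : 1 ≤ n) {W : WCon} (h : Rest n W) : WeakStmt n W := by
  obtain ⟨cs, a, pmax, hcs, ha, ha2, hpm, hS, hH, hF⟩ := h.main
  exact wc_weak hn hS h.power h.sup (wd_deep hcs ha ha2 hpm hH h.wall hF)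

/-- **S0497 from the remaining contracts** -/
theorem r257_top (n : ℕ) (hn : 2 ≤ n) {W : WCon} (hW : WOk n W) (h : Rest n W)
    (f : Lp ℂ 2 (volume : Measure (EuclideanSpace ℝ (Fin n))))
    (hf : Integrable (fun η : EuclideanSpace ℝ (Fin n) =>
      Real.rpow (1 + 4 * Real.pi ^ 2 * ‖η‖ ^ 2) ((n : ℝ) / (2 * ((n : ℝ) + 1))) *
        ‖(𝓕 f : Lp ℂ 2 (volume : Measure (EuclideanSpace ℝ (Fin n)))) η‖ ^ 2)) :
    ∀ᵐ x : EuclideanSpace ℝ (Fin n), ∃ v : ℝ → ℂ, v 0 = f x ∧ ContinuousOn v (Set.Ico 0 1) ∧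
      TendstoUniformlyOn (fun a t => gaussianSchrodinger f a x t) v (𝓝[>] (0 : ℝ))
        (Set.Ioo 0 1) := by
  have hn1 : 1 ≤ n := by omega
  have hs : 0 ≤ Real.sqrt n := Real.sqrt_nonneg _
  obtain ⟨p, C, hp, hC, hS⟩ := br_main hn1 W hW.R (by linarith [hW.Rω]) hW.m₀ hW.M hW.T₀ (by linarith [hW.Cb]) (r257_weak hn1 h)
  exact eg_main hn1 hp hC hS f hf

end Claimed.Agent.R257
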