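import Claimed.Agent.R257.Top
import Claimed.Agent.R257.Sp.Exit
import Claimed.Agent.R257.Infra.Exit
import Claimed.Agent.R257.Infra.Repro
import Claimed.Agent.R257.Infra.Lay.Main
import Claimed.Agent.R257.Frac.Bd
import Claimed.Agent.R257.Weak.Adapt
import Claimed.Agent.R257.Weak.HrNum
import Claimed.Agent.R257.Fl.Main
import Claimed.Agent.R257.Fl.C3
import Claimed.Agent.R257.TR.Main
import Claimed.Agent.R257.TR.Tubes
import Claimed.Agent.Lib.DZ.Occ
import Claimed.Agent.Lib.DZ.OccTR
import Claimed.Agent.R257.Frac.Exit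
import Claimed.Agent.R257.Mr.Sup
import Claimed.Agent.R257.Ang.Final
import Claimed.Agent.R257.Frame.Top
import Claimed.Agent.R257.TR.Fact
import Claimed.Agent.R257.TR.BT.Main

/-!
# R257 / Top2 : THE FRONTIER, LEVEL 2            (helper244)

`r257_rest : 2 ≤ n → WOk n W → Rest2 n W → Rest n W`   uses the exits that exist on main:
`sp_exit_sparse'`, `sp_exit_power'` (helper7), `fc_sd` (helper188), `ifl_lay` (helper245), `inf_lc`, `inf_arrSupStmt` (helper53), `wad_main` (helper67, from `wall_main` of helper185), `wn_main` (helper59), `mr_sup` (helper13), `an_stmt` (helper83), `frame_top` (integrator helper99), `TR.tr_good_ae` (helper84, 53, 125), `TR.tr_bt_all` (helper176, 194, 188), `fl_main0` (helper263, helper18, helper122), `flc_main` (helper185),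
`TR.tr_wire` (helper217), `TR.tr_tb_main` (helper195), `DZ.dz_occ` (helper3), `fc_fractal_main`, `fc_strip_main` (helper188), `ifp_pkt` (helper245).
`Rest2 n W` = the exits that are still missing:
* `restF` : `RestF (n-1)`   (the frontier of the frame chain: `Frame/Top.lean`, integrator helper99)
-/

set_option autoImplicit false

namespace Claimed.Agent.R257

/-- the exits that are still missing -/
structure Rest2 (n : ℕ) (W : WCon) : Prop where
  restF : RestF (n - 1)

theorem WOk.flW {n : ℕ} {W : WCon} (h : WOk n W) : FlW n W where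
  R1 := by linarith [h.R]
  RT := h.time
  Rω := by linarith [h.Rω]
  M := h.M
  Cb := by linarith [h.Cb]

theorem r257_rest {n : ℕ} (hn : 2 ≤ n) {W : WCon} (hW : WOk n W) (h : Rest2 n W) : Rest n W := by
  have hs : 0 ≤ Real.sqrt n := Real.sqrt_nonneg _
  have hSd : SdStmt n := fc_sd hn
  have hLay : LayStmt n := ifl_lay n
  have hLc : LcStmt n := inf_lc n
  have hSup : ArrSupStmt n W := inf_arrSupStmt n W
  have hMr : MrSupStmt n := mr_sup n (by omega)
  have hTu : TR.TubesStmt n := TR.tr_tb_main hn (DZ.dz_occ_tr (DZ.dz_occ (by omega))) (fc_fractal_main n hn) (fc_strip_main n hn) (ifp_pkt n)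
  have hTr : TrStmt n := TR.tr_wire hn (fun _ _ _ _ hc hc1 hM => TR.tr_good_ae hn hM hc hc1) (TR.tr_bt_all hn) hTu
  obtain ⟨cs, hcs, hSp⟩ := sp_exit_sparse' n hn hTr hMr hSd hLay hLc W
  obtain ⟨a, pmax, ha, ha2, hpm, hAng⟩ := an_stmt hn hW
  have hb : 0 ≤ bet n := by unfold bet; positivity
  have hFr : FrameStmt (n - 1) := frame_top (by omega) h.restF
  refine ⟨⟨cs, a, pmax, hcs, ha, ha2, hpm, hSp, ?_, fl_main0 hn hW.flW hcs ha ha2 hpm hSp hAng (flc_main _ hFr)⟩, sp_exit_power' n hn hMr hSd hLay hLc W, hSup, wad_main hn W⟩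
  exact wn_main hn (by linarith [hW.Rω]) hW.M (by linarith [hW.Cb]) ha (by linarith) hpm hAng hSup

end Claimed.Agent.R257
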