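import Claimed.Agent.R257.Top2
import Claimed.Agent.R257.FR3.BlkFin
import Claimed.Agent.R257.FR1.NSubX

/-!
# R257 / Top3 : the last wiring                                   (captain helper244)

`r257_restF (hk : 1 ≤ k) : RestF k` from `FR1.fn_sub_all` (subpower exit of NORM) and `FR3.gb_blk_of` (block package) with the field `ang` of `FCfg.Ok`;
`r257_rest2 (hn : 2 ≤ n) : Rest2 n W`.
-/

set_option autoImplicit false

namespace Claimed.Agent.R257

/-- the two last exits of the frame chain -/
theorem r257_restF {k : ℕ} (hk : 1 ≤ k) : RestF k where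
  sub := FR1.fn_sub_all k
  blk := FR3.gb_blk_of hk (fun _ _ h j I h1 h2 h3 h4 => (h.ang j I h1 h2 h3 h4).1)

/-- nothing is left -/
theorem r257_rest2 {n : ℕ} (hn : 2 ≤ n) (W : WCon) : Rest2 n W :=
  ⟨r257_restF (by omega)⟩

end Claimed.Agent.R257
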